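import Vale.Agent.P011.Hey.H63.Loc
import Vale.Agent.P011.H973.QuadPl

/-!
# Local norms are close to global norms, over global function fields (helper567)

Leaf (L) of the norm index of helper167 (row 10550): every characteristic, every finite separable
extension.
-/

namespace Vale.Agent.P011.H567.FF

open Module TensorProduct
open Vale.Agent.P011.H738 Vale.Agent.P011.H271 Vale.Agent.P011.H973.PF Vale.Agent.P011.Hey.H63

set_option linter.unusedSectionVars false

section norm

variable {k E K : Type*} [Field k] [Field E] [Algebra k E] [FiniteDimensional k E]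

/-- The norm of an element of `K ⊗ E` in coordinates. -/
theorem norm_coord [Field K] [Algebra k K] {n : Type*} [Fintype n] [DecidableEq n]
    (b : Basis n k E) (c : n → K) :
    Algebra.norm K (∑ i, c i • ((1 : K) ⊗ₜ[k] b i)) =
      (∑ i, c i • (Algebra.leftMulMatrix b (b i)).map (algebraMap k K)).det := by
  rw [Algebra.norm_eq_matrix_det (Algebra.TensorProduct.basis K b), map_sum]
  congr 1
  refine Finset.sum_congr rfl fun l _ => ?_
  rw [map_smul]
  congr 1
  ext i j
  rw [Matrix.map_apply, Algebra.leftMulMatrix_eq_repr_mul, Algebra.leftMulMatrix_eq_repr_mul]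
  simp only [Algebra.TensorProduct.basis_apply, Algebra.TensorProduct.tmul_mul_tmul,
      mul_one, Algebra.TensorProduct.basis_repr_tmul]
  simp

/-- The norm of an element of `E` in coordinates. -/
theorem norm_coord' [Field K] [Algebra k K] {n : Type*} [Fintype n] [DecidableEq n]
    (b : Basis n k E) (a : n → k) :
    algebraMap k K (Algebra.norm k (∑ i, a i • b i)) =
      (∑ i, algebraMap k K (a i) • (Algebra.leftMulMatrix b (b i)).map (algebraMap k K)).det := by
  rw [Algebra.norm_eq_matrix_det b, RingHom.map_det, map_sum]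
  congr 1
  rw [map_sum]
  refine Finset.sum_congr rfl fun l _ => ?_
  rw [map_smul]
  ext i j
  simp [Matrix.smul_apply]

/-- The norm form is continuous. -/
theorem continuous_form [NormedField K] [Algebra k K] {n : Type*} [Fintype n] [DecidableEq n]
    (b : Basis n k E) : Continuous fun c : n → K =>
      (∑ i, c i • (Algebra.leftMulMatrix b (b i)).map (algebraMap k K)).det := by
  refine Continuous.matrix_det (continuous_finsetSum _ fun i _ => ?_)
  exact (continuous_apply i).smul continuous_const

end norm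

variable {k : Type} [Field k]

/-- `k` is dense in `k_v`. -/
theorem dense_comp (v : Place k) (x : v.comp) {ε : ℝ} (hε : 0 < ε) :
    ∃ y : k, ‖algebraMap k v.comp y - x‖ < ε := by
  obtain ⟨y, hy⟩ :=
    (UniformSpace.Completion.denseRange_coe (α := WithAbs v.abv)).exists_dist_lt x hε
  refine ⟨y.ofAbs, ?_⟩
  rw [dist_comm, dist_eq_norm] at hy
  exact hy

/-- Weak approximation with targets in the completions. -/
theorem weakC [GFF k] (S : Finset (Place k)) (c : ∀ v : Place k, v.comp) {ε : ℝ} (hε : 0 < ε) :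
    ∃ y : k, ∀ v ∈ S, ‖algebraMap k v.comp y - c v‖ < ε := by
  choose a ha using fun v : Place k => dense_comp v (c v) (half_pos hε)
  obtain ⟨y, hy⟩ := weakP S a (half_pos hε)
  refine ⟨y, fun v hv => ?_⟩
  have h1 : algebraMap k v.comp y - c v =
      algebraMap k v.comp (y - a v) + (algebraMap k v.comp (a v) - c v) := by
    rw [map_sub]; ring
  rw [h1]
  refine (norm_add_le _ _).trans_lt ?_
  have h2 : ‖algebraMap k v.comp (y - a v)‖ < ε / 2 := by
    rw [norm_alg]; exact hy v hv
  linarith [ha v]

/-- **Local norms are close to global norms.** -/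
theorem exists_norm_near [GFF k] {E : Type} [Field E] [Algebra k E] [FiniteDimensional k E]
    (S : Finset (Place k)) (x : kˣ) (hx : ∀ v ∈ S, LocN E (x : k) v) {ε : ℝ} (hε : 0 < ε) :
    ∃ e : Eˣ, ∀ v ∈ S, v.abv (Algebra.norm k (e : E) / x - 1) < ε := by
  classical
  let b := Module.finBasis k E
  have hx' : ∀ v : Place k, ∃ c : Fin (finrank k E) → v.comp, v ∈ S →
      (∑ i, c i • (Algebra.leftMulMatrix b (b i)).map (algebraMap k v.comp)).det =
        algebraMap k v.comp x := by
    intro v
    by_cases hv : v ∈ S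
    · obtain ⟨y, hy⟩ := hx v hv
      refine ⟨fun i => (Algebra.TensorProduct.basis v.comp b).repr y i, fun _ => ?_⟩
      rw [← norm_coord, ← hy]
      congr 1
      conv_rhs => rw [← (Algebra.TensorProduct.basis v.comp b).sum_repr y]
      simp only [Algebra.TensorProduct.basis_apply]
    · exact ⟨0, fun h => absurd h hv⟩
  choose c hc using hx'
  have hx0 : ∀ v : Place k, 0 < v.abv (x : k) := fun v => v.abv.pos x.ne_zero
  have h1 : ∀ v : Place k, ∃ δ : ℝ, 0 < δ ∧ ∀ c' : Fin (finrank k E) → v.comp,
      (∀ i, ‖c' i - c v i‖ < δ) →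
      ‖(∑ i, c' i • (Algebra.leftMulMatrix b (b i)).map (algebraMap k v.comp)).det -
        (∑ i, c v i • (Algebra.leftMulMatrix b (b i)).map (algebraMap k v.comp)).det‖ <
          min ε (1 / 2) * v.abv (x : k) := by
    intro v
    obtain ⟨δ, hδ, h⟩ := Metric.continuous_iff.mp (continuous_form (K := v.comp) b) (c v)
      (min ε (1 / 2) * v.abv (x : k)) (mul_pos (lt_min hε (by norm_num)) (hx0 v))
    refine ⟨δ, hδ, fun c' hc' => ?_⟩
    rw [← dist_eq_norm]
    refine h c' ?_
    rw [dist_pi_lt_iff hδ]
    intro i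
    rw [dist_eq_norm]
    exact hc' i
  choose δ hδ hδ' using h1
  obtain ⟨δ₀, hδ₀, hδS⟩ : ∃ δ₀ : ℝ, 0 < δ₀ ∧ ∀ v ∈ S, δ₀ ≤ δ v := by
    by_cases hS : S.Nonempty
    · exact ⟨S.inf' hS δ, (Finset.lt_inf'_iff hS).mpr fun v _ => hδ v,
        fun v hv => Finset.inf'_le _ hv⟩
    · refine ⟨1, one_pos, fun v hv => absurd ⟨v, hv⟩ hS⟩
  choose a ha using fun i : Fin (finrank k E) => weakC S (fun v => c v i) hδ₀
  have h2 : ∀ v ∈ S, v.abv (Algebra.norm k (∑ i, a i • b i) / x - 1) < min ε (1 / 2) := by
    intro v hv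
    have h3 := hδ' v (fun i => algebraMap k v.comp (a i))
      (fun i => (ha i v hv).trans_le (hδS v hv))
    rw [hc v hv, ← norm_coord', ← map_sub, norm_alg] at h3
    have h4 : Algebra.norm k (∑ i, a i • b i) / (x : k) - 1 =
        (Algebra.norm k (∑ i, a i • b i) - x) / x := by
      rw [sub_div, div_self x.ne_zero]
    rw [h4, map_div₀, div_lt_iff₀ (hx0 v)]
    exact h3
  by_cases he : ∑ i, a i • b i = 0
  · refine ⟨1, fun v hv => ?_⟩
    exfalso
    have h3 := h2 v hv
    rw [he, Algebra.norm_zero, zero_div, zero_sub, v.abv.map_neg, map_one] at h3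
    have h4 := h3.trans_le (min_le_right _ _)
    norm_num at h4
  · exact ⟨Units.mk0 _ he, fun v hv => (h2 v hv).trans_le (min_le_left _ _)⟩

/-- **Elements near one are local norms.** -/
theorem locN_near (E : Type) [Field E] [Algebra k E] [FiniteDimensional k E]
    [Algebra.IsSeparable k E] (v : Place k) : ∃ δ : ℝ, 0 < δ ∧
    ∀ x : k, v.abv (x - 1) < δ → LocN E x v := by
  obtain ⟨δ, hδ, -, h⟩ := loc_open E v
  exact ⟨δ, hδ, h⟩

/-- One radius for a finite set of places. -/
theorem locN_nearS (E : Type) [Field E] [Algebra k E] [FiniteDimensional k E]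
    [Algebra.IsSeparable k E] (S : Finset (Place k)) : ∃ δ : ℝ, 0 < δ ∧
    ∀ v ∈ S, ∀ x : k, v.abv (x - 1) < δ → LocN E x v := by
  classical
  choose δ hδ h using fun v : Place k => locN_near (k := k) E v
  by_cases hS : S.Nonempty
  · exact ⟨S.inf' hS δ, (Finset.lt_inf'_iff hS).mpr fun v _ => hδ v,
      fun v hv x hx => h v x (hx.trans_le (Finset.inf'_le _ hv))⟩
  · exact ⟨1, one_pos, fun v hv => absurd ⟨v, hv⟩ hS⟩

/-- **A local norm at the places of `S` is a global norm times an element near one**, and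
conversely: `x` is a local norm at all `v ∈ S` if and only if the class of `x` contains a global
norm in every neighbourhood of one. -/
theorem locN_iff_near [GFF k] (E : Type) [Field E] [Algebra k E] [FiniteDimensional k E]
    [Algebra.IsSeparable k E] (S : Finset (Place k)) (x : kˣ) :
    (∀ v ∈ S, LocN E (x : k) v) ↔
      ∀ ε : ℝ, 0 < ε → ∃ e : Eˣ, ∀ v ∈ S, v.abv (Algebra.norm k (e : E) / x - 1) < ε := by
  refine ⟨fun h ε hε => exists_norm_near S x h hε, fun h v hv => ?_⟩
  obtain ⟨δ, hδ, h1⟩ := locN_near (k := k) E v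
  obtain ⟨e, he⟩ := h δ hδ
  have h2 := (LocN.of_norm (e : E) v).div (h1 _ (he v hv))
  have h3 : Algebra.norm k (e : E) ≠ 0 := by
    rw [Algebra.norm_ne_zero_iff]; exact e.ne_zero
  rwa [div_div_cancel₀ h3] at h2

end Vale.Agent.P011.H567.FF
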